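import Vale.Agent.P160R.Column.Index

/-!
# The adjugate of a corank-one matrix at a pivot
-/

namespace Vale.Agent.P160R

open Matrix Finset

variable {ι : Type} [Fintype ι] [DecidableEq ι]

/-- Two kernel vectors of a corank-one matrix are proportional. -/
theorem kernel_proportional (A : Matrix ι ι ℤ)
    (hr : (A.map (Int.cast : ℤ → ℚ)).rank + 1 = Fintype.card ι) {z v : ι → ℤ}
    (hz : A.mulVec z = 0) (hv : A.mulVec v = 0) (i k : ι) : v i * z k = v k * z i := by
  set L := (A.map (Int.cast : ℤ → ℚ)).mulVecLin
  have hk : Module.finrank ℚ (LinearMap.ker L) ≤ 1 := by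
    have := LinearMap.finrank_range_add_finrank_ker L
    rw [Module.finrank_fintype_fun_eq_card] at this
    have hr' : Module.finrank ℚ (LinearMap.range L) + 1 = Fintype.card ι := hr
    omega
  have hmem : ∀ u : ι → ℤ, A.mulVec u = 0 → (fun l => (u l : ℚ)) ∈ LinearMap.ker L := by
    intro u hu
    rw [LinearMap.mem_ker]
    funext l
    have := RingHom.map_mulVec (Int.castRingHom ℚ) A u l
    rw [hu, Pi.zero_apply, map_zero] at this
    exact this.symm
  obtain ⟨e, he⟩ := finrank_le_one_iff.1 hk
  obtain ⟨a, ha⟩ := he ⟨_, hmem z hz⟩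
  obtain ⟨b, hb⟩ := he ⟨_, hmem v hv⟩
  have ha' := fun l => congrFun (congrArg Subtype.val ha) l
  have hb' := fun l => congrFun (congrArg Subtype.val hb) l
  simp only [SetLike.val_smul, Pi.smul_apply, smul_eq_mul] at ha' hb'
  have : ((v i * z k : ℤ) : ℚ) = ((v k * z i : ℤ) : ℚ) := by
    push_cast
    rw [← ha' i, ← ha' k, ← hb' i, ← hb' k]
    ring
  exact_mod_cast this

/-- The diagonal of the adjugate is a principal minor. -/
theorem det_compl_single (A : Matrix ι ι ℤ) (j : ι) :
    (A.submatrix (Subtype.val : {i // i ≠ j} → ι) Subtype.val).det = A.adjugate j j := by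
  rw [adjugate_apply, Matrix.twoBlockTriangular_det _ (fun i => i ≠ j)]
  · have h1 : (Matrix.toSquareBlockProp (A.updateRow j (Pi.single j 1)) fun i => i ≠ j) =
        A.submatrix (Subtype.val : {i // i ≠ j} → ι) Subtype.val := by
      ext a b
      simp [Matrix.toSquareBlockProp, Matrix.updateRow_ne a.2]
    have h2 : (Matrix.toSquareBlockProp (A.updateRow j (Pi.single j 1)) fun i => ¬ i ≠ j) = 1 := by
      ext a b
      have ha : a.1 = j := not_not.1 a.2
      have hb : b.1 = j := not_not.1 b.2
      have hab : a = b := Subtype.ext (ha.trans hb.symm)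
      subst hab
      simp [Matrix.toSquareBlockProp, ha]
    rw [h1, h2, Matrix.det_one, mul_one]
  · intro i hi k hk
    rw [not_not.1 hi]
    simp [hk]

/-- The principal minor is proportional to the square of the kernel coordinate. -/
theorem minor_ratio (A : Matrix ι ι ℤ) (hA : A.IsSymm)
    (hr : (A.map (Int.cast : ℤ → ℚ)).rank + 1 = Fintype.card ι) {z : ι → ℤ}
    (hz : A.mulVec z = 0) (hd : A.det = 0) (j k : ι) :
    A.adjugate j j * z k ^ 2 = A.adjugate k k * z j ^ 2 := by
  have hcol : ∀ l, A.mulVec (fun i => A.adjugate i l) = 0 := by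
    intro l
    funext i
    have := congrFun (congrFun (Matrix.mul_adjugate A) i) l
    rw [hd, zero_smul] at this
    exact this
  have hs : A.adjugate j k = A.adjugate k j := by
    have := congrFun (congrFun (Matrix.adjugate_transpose A) k) j
    rw [hA.eq] at this
    exact this
  have h1 := kernel_proportional A hr hz (hcol j) j k
  have h2 := kernel_proportional A hr hz (hcol k) k j
  rw [hs] at h2
  linear_combination z k * h1 - z j * h2

end Vale.Agent.P160R
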