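import Vale.Agent.P160R.Local.Arith

/-!
# The index of the orthogonal of a class
-/

namespace Vale.Agent.P160R

open Matrix Finset

variable {ι : Type} [Fintype ι] [DecidableEq ι]

theorem index_range_mulVec (B : Matrix ι ι ℤ) (hd : B.det ≠ 0) :
    (LinearMap.range B.mulVecLin).toAddSubgroup.index = B.det.natAbs := by
  have hinj : Function.Injective B.mulVecLin := by
    intro u v h
    by_contra hne
    exact hd (Matrix.exists_mulVec_eq_zero_iff.1 ⟨u - v, sub_ne_zero.2 hne, by
      rw [Matrix.mulVec_sub]; exact sub_eq_zero.2 h⟩)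
  have h := Submodule.natAbs_det_equiv _ (LinearEquiv.ofInjective B.mulVecLin hinj)
  calc (LinearMap.range B.mulVecLin).toAddSubgroup.index
      = Nat.card ((ι → ℤ) ⧸ LinearMap.range B.mulVecLin) := rfl
    _ = _ := h.symm
    _ = (LinearMap.det B.mulVecLin).natAbs := by congr 2
    _ = B.det.natAbs := by rw [← Matrix.toLin'_apply', LinearMap.det_toLin']

theorem den_dvd_clsOrd (B : Matrix ι ι ℤ) (x : ι → ℤ) (i : ι) :
    (qVec B x i).den ∣ clsOrd B x := Finset.dvd_lcm (Finset.mem_univ i)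

theorem clsOrd_ne_zero (B : Matrix ι ι ℤ) (x : ι → ℤ) : clsOrd B x ≠ 0 := by
  rw [clsOrd, Ne, Finset.lcm_eq_zero_iff]
  rintro ⟨i, -, hi⟩
  exact (qVec B x i).den_nz hi

/-- `clsOrd B x • B⁻¹ x` is a primitive integer vector modulo the order. -/
theorem exists_ord_vec (B : Matrix ι ι ℤ) (x : ι → ℤ) :
    ∃ w : ι → ℤ, (∀ i, (clsOrd B x : ℚ) * qVec B x i = w i) ∧
      ∃ (g : ι → ℤ) (t : ℤ), ∑ i, w i * g i + (clsOrd B x : ℤ) * t = 1 := by
  set s := clsOrd B x
  have hw : ∀ i, ∃ w : ℤ, (s : ℚ) * qVec B x i = w := by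
    intro i
    obtain ⟨k, hk⟩ := den_dvd_clsOrd B x i
    refine ⟨(qVec B x i).num * k, ?_⟩
    rw [show (s : ℚ) = ((qVec B x i).den : ℚ) * k by rw [← Nat.cast_mul, ← hk]]
    push_cast
    have := Rat.mul_den_eq_num (qVec B x i)
    linear_combination (k : ℚ) * this
  choose w hw using hw
  refine ⟨w, hw, ?_⟩
  obtain ⟨g, hg⟩ := Finset.gcd_eq_sum_mul (univ : Finset ι) w
  have hcop : IsCoprime ((univ : Finset ι).gcd w) (s : ℤ) := by
    rw [Int.isCoprime_iff_nat_coprime, Int.natAbs_natCast]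
    by_contra hne
    obtain ⟨q, hq, hqg, hqs⟩ := Nat.Prime.not_coprime_iff_dvd.1 hne
    obtain ⟨k, hk⟩ := hqs
    have hsne : s ≠ 0 := clsOrd_ne_zero B x
    have : s ∣ k := by
      refine Finset.lcm_dvd fun i _ => ?_
      obtain ⟨m, hm⟩ : (q : ℤ) ∣ w i :=
        (Int.natCast_dvd.2 hqg).trans (Finset.gcd_dvd (Finset.mem_univ i))
      have hk0 : (k : ℚ) ≠ 0 := by
        exact_mod_cast fun h : k = 0 => hsne (by rw [hk, h, mul_zero])
      have he : qVec B x i = ((m : ℚ) / ((k : ℤ) : ℚ)) := by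
        rw [Int.cast_natCast, eq_div_iff hk0]
        have hh := hw i
        rw [hk, hm] at hh
        push_cast at hh
        have hq0 : (q : ℚ) ≠ 0 := by exact_mod_cast hq.ne_zero
        exact mul_left_cancel₀ hq0 (by linear_combination hh)
      rw [← Int.natCast_dvd_natCast, he, ← Rat.divInt_eq_div]
      exact Rat.den_dvd m k
    have h1 := Nat.le_of_dvd (Nat.pos_of_ne_zero fun h => hsne (by rw [hk, h, mul_zero])) this
    rw [hk] at h1
    have : 0 < k := Nat.pos_of_ne_zero fun h => hsne (by rw [hk, h, mul_zero])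
    have := hq.two_le
    nlinarith
  obtain ⟨a, b, hab⟩ := hcop
  refine ⟨fun i => a * g i, b, ?_⟩
  rw [← hab, hg, Finset.mul_sum]
  congr 1
  · exact Finset.sum_congr rfl fun i _ => by ring
  · ring

/-- The square of the order divides the determinant, and the quotient kills the orthogonal
modulo the class. -/
theorem ord_sq_dvd_and_kill (B : Matrix ι ι ℤ) (hB : B.IsSymm) (hd : B.det ≠ 0) (x : ι → ℤ)
    (hx : (qForm B x x).den = 1) :
    clsOrd B x ^ 2 ∣ B.det.natAbs ∧ ∀ r : ι → ℤ, (qForm B x r).den = 1 →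
      ∃ (α : ℤ) (u : ι → ℤ), (clsCof B x : ℤ) • r = α • x + B.mulVec u := by
  obtain ⟨w, hw, g, t, hgt⟩ := exists_ord_vec B x
  set s := clsOrd B x with hs
  have hs0 : s ≠ 0 := clsOrd_ne_zero B x
  haveI : NeZero s := ⟨hs0⟩
  set R := (LinearMap.range B.mulVecLin).toAddSubgroup
  set S := AddSubgroup.zmultiples x ⊔ R
  let ψ : (ι → ℤ) →+ ZMod s :=
    AddMonoidHom.mk' (fun r => ((r ⬝ᵥ w : ℤ) : ZMod s)) fun a b => by
      rw [add_dotProduct]; push_cast; ring
  have hψ : ∀ r, ((r ⬝ᵥ w : ℤ) : ℚ) = (s : ℚ) * qForm B x r := by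
    intro r
    rw [qForm_symm hB, qForm, dotProduct, dotProduct, Finset.mul_sum]
    push_cast
    exact Finset.sum_congr rfl fun i _ => by rw [← hw i]; ring
  have hψint : ∀ r, (qForm B x r).den = 1 → r ∈ ψ.ker := by
    intro r hr
    refine AddMonoidHom.mem_ker.2 ((ZMod.intCast_zmod_eq_zero_iff_dvd _ _).2
      ⟨(qForm B x r).num, ?_⟩)
    have := hψ r
    rw [← Rat.coe_int_num_of_den_eq_one hr] at this
    exact_mod_cast this
  have hSker : S ≤ ψ.ker := by
    refine sup_le ((AddSubgroup.zmultiples_le).2 (hψint x hx)) fun r hr => ?_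
    obtain ⟨u, rfl⟩ : ∃ u, B.mulVec u = r := by simpa [R] using hr
    refine hψint _ ?_
    rw [qForm_mulVec_right hd]
    exact Rat.den_intCast _
  have hindexψ : ψ.ker.index = s := by
    rw [AddSubgroup.index_ker]
    have hsurj : Function.Surjective ψ := by
      intro a
      obtain ⟨a, rfl⟩ := ZMod.intCast_surjective a
      refine ⟨a • g, ?_⟩
      have h1 : ((((a • g) ⬝ᵥ w : ℤ)) : ZMod s) = ((a * ∑ i, w i * g i : ℤ) : ZMod s) := by
        congr 1
        rw [smul_dotProduct, smul_eq_mul, dotProduct]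
        congr 1
        exact Finset.sum_congr rfl fun i _ => mul_comm _ _
      refine h1.trans ?_
      rw [show ∑ i, w i * g i = 1 - (s : ℤ) * t by linarith]
      push_cast
      simp
    rw [AddMonoidHom.range_eq_top.2 hsurj]
    simp
  have hRS : R.relIndex S = s := by
    have h1 : R.relIndex S = R.relIndex (AddSubgroup.zmultiples x) :=
      AddSubgroup.relIndex_sup_right ..
    rw [h1, ← AddSubgroup.range_zmultiplesHom, ← AddSubgroup.index_comap]
    have : R.comap (zmultiplesHom (ι → ℤ) x) = AddSubgroup.zmultiples (s : ℤ) := by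
      ext k
      simp only [AddSubgroup.mem_comap, zmultiplesHom_apply, Int.mem_zmultiples_iff, R,
        Submodule.mem_toAddSubgroup, LinearMap.mem_range, Matrix.mulVecLin_apply]
      constructor
      · rintro ⟨u, hu⟩
        have hk : ∀ i, (s : ℤ) ∣ k * w i := fun i => by
          have h2 := qVec_mulVec hd u i
          rw [hu, qVec_smul] at h2
          refine ⟨u i, ?_⟩
          have h3 : ((k * w i : ℤ) : ℚ) = (((s : ℤ) * u i : ℤ) : ℚ) := by
            push_cast
            rw [← hw i, ← h2]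
            simp
            ring
          exact_mod_cast h3
        have h4 : (s : ℤ) ∣ k * (∑ i, w i * g i + (s : ℤ) * t) := by
          rw [mul_add, Finset.mul_sum]
          exact dvd_add (Finset.dvd_sum fun i _ => by rw [← mul_assoc]; exact (hk i).mul_right _)
            ((dvd_mul_right _ _).mul_left k)
        rwa [hgt, mul_one] at h4
      · rintro ⟨m, rfl⟩
        refine ⟨m • w, ?_⟩
        funext i
        have h5 : (((B.mulVec w) i : ℤ) : ℚ) = (((s : ℤ) * x i : ℤ) : ℚ) := by
          refine (RingHom.map_mulVec (Int.castRingHom ℚ) B w i).trans ?_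
          show ((B.map (Int.cast : ℤ → ℚ)).mulVec fun l => (w l : ℚ)) i = _
          rw [show (fun l => (w l : ℚ)) = (s : ℚ) • qVec B x from funext fun l => by simp [hw l],
            Matrix.mulVec_smul, qVec, qInv, Matrix.mulVec_mulVec,
            Matrix.mul_nonsing_inv _ (isUnit_map hd), Matrix.one_mulVec]
          simp
        rw [Matrix.mulVec_smul, Pi.smul_apply, smul_eq_mul, Int.cast_inj.1 h5]
        simp
        ring
    rw [this, Int.index_zmultiples, Int.natAbs_natCast]
  have hchain : B.det.natAbs = s * S.relIndex ψ.ker * s := by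
    rw [← index_range_mulVec B hd]
    have hRle : R ≤ S := le_sup_right
    have e1 := AddSubgroup.relIndex_mul_index (H := R) (hRle.trans hSker)
    have e2 := AddSubgroup.relIndex_mul_relIndex R S ψ.ker hRle hSker
    rw [hindexψ, ← e2, hRS] at e1
    exact e1.symm
  have hdvd : s ^ 2 ∣ B.det.natAbs := ⟨S.relIndex ψ.ker, by rw [hchain]; ring⟩
  refine ⟨hdvd, fun r hr => ?_⟩
  have hcof : clsCof B x = S.relIndex ψ.ker := by
    rw [clsCof, ← hs, hchain, show s * S.relIndex ψ.ker * s = S.relIndex ψ.ker * s ^ 2 by ring,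
      Nat.mul_div_cancel _ (pow_pos (Nat.pos_of_ne_zero hs0) 2)]
  have hmem : (clsCof B x : ℤ) • r ∈ S := by
    have := AddSubgroup.nsmul_index_mem (S.addSubgroupOf ψ.ker) ⟨r, hψint r hr⟩
    rw [AddSubgroup.mem_addSubgroupOf] at this
    rw [natCast_zsmul, hcof]
    simpa [AddSubgroup.relIndex] using this
  obtain ⟨a, ha, b, hb, hab⟩ := AddSubgroup.mem_sup.1 hmem
  obtain ⟨α, rfl⟩ := AddSubgroup.mem_zmultiples_iff.1 ha
  obtain ⟨u, rfl⟩ : ∃ u, B.mulVec u = b := by simpa [R] using hb
  exact ⟨α, u, hab.symm⟩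

end Vale.Agent.P160R
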